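import Vale.Agent.Lib.P150.Overlap

namespace Vale.Agent.Results.P150.GapOverlap

open Vale.Agent.Lib.P150

/-- For every number of spins, inverse temperature and disorder: the spectral gap of the
heat-bath dynamics of the zero-field SK measure is at most the inverse of every Rayleigh
quotient of the matrix of two-point correlations, and at most 1 / (n E[R^2]) where R is
the overlap of two independent samples. -/
theorem result : ∀ (n : ℕ) (β : ℝ) (g : Fin n → Fin n → ℝ), 0 < n →
    (∀ v : Fin n → ℝ,
      gap n β g * (∑ i : Fin n, ∑ j : Fin n,
        v i * v j * expect n β g (fun x => spin (x i) * spin (x j))) ≤ ∑ i : Fin n, v i ^ 2) ∧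
    gap n β g * ((n : ℝ) * overlapSq n β g) ≤ 1 :=
  fun _ _ _ hn => ⟨fun v => gap_corr_bound v, gap_overlap_bound hn⟩

end Vale.Agent.Results.P150.GapOverlap
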