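import Vale.Agent.Lib.P150.Overlap
import Vale.Agent.Lib.P150.Mixing

namespace Vale.Agent.Results.P150.LowerBoundsTogether

open Vale.Agent.Lib.P150

/-- Collection of the two other P150 hand-ins (GapOverlap and MixingOverlap) in one statement.
For every number of spins, inverse temperature and disorder: the spectral gap of the heat-bath
dynamics of the zero-field SK measure is at most the inverse of every Rayleigh quotient of the
matrix of two-point correlations and at most 1 / (n E[R^2]), where R is the overlap of two
independent samples; and any time t at which the continuous-time dynamics is within total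
variation 1/4 of equilibrium from every start satisfies gap * t ≥ log 2 and
t ≥ (log 2) n E[R^2]. -/
theorem result : ∀ (n : ℕ) (β : ℝ) (g : Fin n → Fin n → ℝ), 0 < n →
    ((∀ v : Fin n → ℝ,
      gap n β g * (∑ i : Fin n, ∑ j : Fin n,
        v i * v j * expect n β g (fun x => spin (x i) * spin (x j))) ≤ ∑ i : Fin n, v i ^ 2) ∧
    gap n β g * ((n : ℝ) * overlapSq n β g) ≤ 1) ∧
    (∀ t : ℝ, 0 ≤ t →
      (∀ x : Fin n → Bool, tvDist n β g t x ≤ 1 / 4) →
      Real.log 2 ≤ gap n β g * t ∧ Real.log 2 * ((n : ℝ) * overlapSq n β g) ≤ t) :=
  fun _ _ _ hn => ⟨⟨fun v => gap_corr_bound v, gap_overlap_bound hn⟩,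
    fun t ht hmix => mixing_lower_bound hn t ht hmix⟩

end Vale.Agent.Results.P150.LowerBoundsTogether
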