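import Vale.Agent.Lib.P150.Mixing

namespace Vale.Agent.Results.P150.MixingOverlap

open Vale.Agent.Lib.P150

/-- For every number of spins, inverse temperature and disorder: any time t at which the
continuous-time heat-bath dynamics of the zero-field SK measure is within total variation 1/4
of equilibrium from every start satisfies gap * t ≥ log 2 and t ≥ (log 2) n E[R^2], where R
is the overlap of two independent samples. -/
theorem result : ∀ (n : ℕ) (β : ℝ) (g : Fin n → Fin n → ℝ), 0 < n → ∀ t : ℝ, 0 ≤ t →
    (∀ x : Fin n → Bool, tvDist n β g t x ≤ 1 / 4) →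
    Real.log 2 ≤ gap n β g * t ∧ Real.log 2 * ((n : ℝ) * overlapSq n β g) ≤ t :=
  fun _ _ _ hn t ht hmix => mixing_lower_bound hn t ht hmix

end Vale.Agent.Results.P150.MixingOverlap
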